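import Vale.Agent.P038.H38.Strong

/-!
# P038 (H932): outer pairs, the left interior and the transported Hall conditions
-/

namespace Vale.Agent.P038.H932

open Finset Vale.Agent.P038.H139 Vale.Agent.P038.H38

universe u

variable {V : Type u} [Fintype V]

/-- closed adjacency -/
def cr (D : OGraph V) (a b : V) : Prop := a = b ∨ D.arc a b

variable {D : OGraph V} {w : V → ℝ}

theorem mem_cl' {S : Finset V} {z : V} : z ∈ cl D S ↔ ∃ y ∈ S, cr D y z := by
  rw [mem_cl]
  constructor
  · rintro (h | ⟨y, hy, h⟩)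
    · exact ⟨z, h, Or.inl rfl⟩
    · exact ⟨y, hy, Or.inr h⟩
  · rintro ⟨y, hy, rfl | h⟩
    · exact Or.inl hy
    · exact Or.inr ⟨y, hy, h⟩

/-- Outer pairs of families. -/
structure Outer (D : OGraph V) (P T : V → Finset V) : Prop where
  left : ∀ a b, cr D a b → b ∈ P a
  right : ∀ a b, cr D a b → b ∈ T a
  orth : ∀ a b, b ∈ P a → a ∈ T b → a = b

theorem Outer.swap {P T : V → Finset V} (h : Outer D P T) : Outer D T P :=
  ⟨h.right, h.left, fun a b h1 h2 => (h.orth b a h2 h1).symm⟩

open Classical in
/-- The left interior of a family. -/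
noncomputable def li (D : OGraph V) (P : V → Finset V) (a : V) : Finset V :=
  Finset.univ.filter fun b => ∀ a', cr D a' a → b ∈ P a'

theorem mem_li {P : V → Finset V} {a b : V} : b ∈ li D P a ↔ ∀ a', cr D a' a → b ∈ P a' := by
  classical
  simp [li]

theorem self_mem_li {P T : V → Finset V} (h : Outer D P T) (a : V) : a ∈ li D P a :=
  mem_li.2 fun a' h' => h.left a' a h'

/-- `L0 ⊆ L1` -/
theorem li_not_cl {P T : V → Finset V} (h : Outer D P T) {a b : V} (hb : b ∈ li D P a)
    (hab : a ≠ b) : a ∉ cl D (T b) := by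
  intro hc
  obtain ⟨y, hy, hya⟩ := mem_cl'.1 hc
  have h1 := h.orth y b (mem_li.1 hb y hya) hy
  subst h1
  exact hab (h.orth a y (mem_li.1 hb a (Or.inl rfl)) (h.right y a hya))

/-- `N0 ⊆ N1` -/
theorem cl_not_li {P T : V → Finset V} (h : Outer D P T) {a b : V} (hb : b ∈ cl D (P a))
    (hab : a ≠ b) : a ∉ li D T b :=
  fun hc => li_not_cl h.swap hc (Ne.symm hab) hb

/-- `T0 ⊆ T1`: the left interiors form an inner pair. -/
theorem li_orth {P T : V → Finset V} (h : Outer D P T) {a b : V} (hb : b ∈ cl D (li D P a))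
    (hab : a ≠ b) : a ∉ cl D (li D T b) := by
  intro hc
  obtain ⟨x, hx, hxb⟩ := mem_cl'.1 hb
  obtain ⟨y, hy, hya⟩ := mem_cl'.1 hc
  have h1 := h.orth y x (mem_li.1 hx y hya) (mem_li.1 hy x hxb)
  subst h1
  have h2 := h.orth a y (mem_li.1 hx a (Or.inl rfl)) (h.right y a hya)
  have h3 := h.orth y b (h.left y b hxb) (mem_li.1 hy b (Or.inl rfl))
  exact hab (h2.trans h3)

variable [DecidableEq V]

theorem Orth_li {P T : V → Finset V} (h : Outer D P T) : Orth D (li D P) (li D T) :=
  ⟨self_mem_li h, self_mem_li h.swap, fun _ _ hax hx => li_orth h hx hax⟩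

theorem Outer_cl {Y Z : V → Finset V} (h : Orth D Y Z) :
    Outer D (fun a => cl D (Y a)) (fun a => cl D (Z a)) := by
  refine ⟨fun a b hab => mem_cl'.2 ⟨a, h.left a, hab⟩, fun a b hab => mem_cl'.2 ⟨a, h.right a, hab⟩,
    fun a b h1 h2 => ?_⟩
  by_contra hne
  exact h.orth a b hne h1 h2

theorem cl_union (S T : Finset V) : cl D (S ∪ T) = cl D S ∪ cl D T := by
  ext z
  simp only [mem_cl', Finset.mem_union]
  constructor
  · rintro ⟨y, hy | hy, h⟩
    · exact Or.inl ⟨y, hy, h⟩
    · exact Or.inr ⟨y, hy, h⟩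
  · rintro (⟨y, hy, h⟩ | ⟨y, hy, h⟩)
    · exact ⟨y, Or.inl hy, h⟩
    · exact ⟨y, Or.inr hy, h⟩

theorem W_L1 (S : Finset V) : W w (L1 D S) = W w (cl D S) - W w S := by
  have e : L1 D S = cl D S \ S := by
    ext z
    rw [mem_L1', Finset.mem_sdiff]
  rw [e, W_sdiff (subset_cl D S)]

theorem W_union_inter (S T : Finset V) : W w (S ∪ T) + W w (S ∩ T) = W w S + W w T :=
  Finset.sum_union_inter

theorem submod (hw : ∀ v, 0 ≤ w v) (S T : Finset V) :
    W w (L1 D (S ∪ T)) + W w (L1 D (S ∩ T)) ≤ W w (L1 D S) + W w (L1 D T) := by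
  rw [W_L1, W_L1, W_L1, W_L1, cl_union]
  have h1 := W_union_inter (w := w) (cl D S) (cl D T)
  have h2 := W_union_inter (w := w) S T
  have h3 : W w (cl D (S ∩ T)) ≤ W w (cl D S ∩ cl D T) :=
    W_mono hw (Finset.subset_inter (cl_mono' Finset.inter_subset_left)
      (cl_mono' Finset.inter_subset_right))
  linarith

/-- Outer-optimal pairs. -/
structure OutOpt (D : OGraph V) (w : V → ℝ) (P T : V → Finset V) : Prop extends Outer D P T where
  opt : ∀ P' T' : V → Finset V, Outer D P' T' → En D w P + En D w T ≤ En D w P' + En D w T'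

theorem OutOpt.swap' {P T : V → Finset V} (h : OutOpt D w P T) : OutOpt D w T P :=
  ⟨h.toOuter.swap, fun P' T' h' => by
    have := h.opt T' P' h'.swap
    linarith⟩

theorem En_update (P : V → Finset V) (a : V) (Q : Finset V) :
    En D w (Function.update P a Q) = En D w P + w a * (W w (L1 D Q) - W w (L1 D (P a))) := by
  unfold En
  have e : ∀ x, w x * W w (L1 D (Function.update P a Q x)) = w x * W w (L1 D (P x)) +
      (if x = a then w a * (W w (L1 D Q) - W w (L1 D (P a))) else 0) := by
    intro x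
    by_cases hx : x = a
    · subst hx
      simp
      ring
    · rw [Function.update_of_ne hx, if_neg hx, add_zero]
  simp only [e]
  rw [Finset.sum_add_distrib]
  simp

theorem row_opt (hw : ∀ v, 0 < w v) {P T : V → Finset V} (h : OutOpt D w P T) (a : V)
    (S : Finset V) (hS : ∀ b ∈ S, a ∈ T b → a = b) :
    W w (L1 D (P a)) ≤ W w (L1 D (S ∪ P a)) := by
  have h1 : Outer D (Function.update P a (S ∪ P a)) T := by
    refine ⟨?_, h.right, ?_⟩
    · intro x b hxb
      by_cases hx : x = a
      · subst hx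
        rw [Function.update_self]
        exact Finset.mem_union_right _ (h.left x b hxb)
      · rw [Function.update_of_ne hx]
        exact h.left x b hxb
    · intro x b hb hx'
      by_cases hx : x = a
      · subst hx
        rw [Function.update_self] at hb
        rcases Finset.mem_union.1 hb with hb | hb
        · exact hS b hb hx'
        · exact h.orth x b hb hx'
      · rw [Function.update_of_ne hx] at hb
        exact h.orth x b hb hx'
  have h2 := h.opt _ _ h1
  rw [En_update] at h2
  have h3 : 0 ≤ w a * (W w (L1 D (S ∪ P a)) - W w (L1 D (P a))) := by linarith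
  have h4 := nonneg_of_mul_nonneg_right h3 (hw a)
  linarith

/-- The optimality moves to the left interior. -/
theorem li_opt (hw : ∀ v, 0 < w v) {P T : V → Finset V} (h : OutOpt D w P T) (a : V)
    (S : Finset V) (hPS : li D P a ⊆ S) (hS : ∀ b ∈ S, a ≠ b → a ∉ cl D (T b)) :
    W w (L1 D (li D P a)) ≤ W w (L1 D S) := by
  classical
  have key : ∀ Q : Finset V, (∀ a' ∈ Q, cr D a' a) →
      W w (L1 D (S.filter fun b => ∀ a' ∈ Q, b ∈ P a')) ≤ W w (L1 D S) := by
    intro Q
    induction Q using Finset.induction_on with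
    | empty => intro _; simp
    | insert a' Q _ ih =>
      intro hQ
      have h1 := ih fun x hx => hQ x (Finset.mem_insert_of_mem hx)
      set S' := S.filter fun b => ∀ a' ∈ Q, b ∈ P a' with hS'
      have ha' : cr D a' a := hQ a' (Finset.mem_insert_self _ _)
      have e : (S.filter fun b => ∀ a'' ∈ insert a' Q, b ∈ P a'') = S' ∩ P a' := by
        ext b
        simp only [hS', Finset.mem_filter, Finset.mem_inter, Finset.mem_insert, forall_eq_or_imp]
        tauto
      rw [e]
      have h2 : W w (L1 D (P a')) ≤ W w (L1 D (S' ∪ P a')) := by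
        refine row_opt hw h a' S' fun b hb hbT => ?_
        have hbS : b ∈ S := (Finset.mem_filter.1 hb).1
        by_cases hab : a = b
        · subst hab
          exact h.orth a' a (h.left a' a ha') hbT
        · exact absurd (mem_cl'.2 ⟨a', hbT, ha'⟩) (hS b hbS hab)
      have h3 := submod (D := D) (fun v => (hw v).le) S' (P a')
      linarith
  have h1 := key (Finset.univ.filter fun a' => cr D a' a) (by simp)
  have e : (S.filter fun b => ∀ a' ∈ (Finset.univ.filter fun a' => cr D a' a), b ∈ P a') =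
      li D P a := by
    ext b
    simp only [Finset.mem_filter, Finset.mem_univ, true_and]
    rw [mem_li]
    constructor
    · rintro ⟨_, h2⟩
      exact h2
    · intro h2
      exact ⟨hPS (mem_li.2 h2), h2⟩
  rw [e] at h1
  exact h1

/-- **The transported Hall condition.** -/
theorem li_hall (hw : ∀ v, 0 < w v) {P T : V → Finset V} (h : OutOpt D w P T) (a : V)
    (F : Finset V) (hF0 : ∀ b ∈ F, b ∉ li D P a) (hF1 : ∀ b ∈ F, a ∉ cl D (T b)) :
    W w F ≤ W w (cl D F \ cl D (li D P a)) := by
  have h1 := li_opt hw h a (li D P a ∪ F) Finset.subset_union_left (by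
    intro b hb hab
    rcases Finset.mem_union.1 hb with hb | hb
    · exact li_not_cl h.toOuter hb hab
    · exact hF1 b hb)
  rw [W_L1, W_L1, cl_union] at h1
  have h2 : W w (li D P a ∪ F) = W w (li D P a) + W w F := W_union (by
    rw [Finset.disjoint_left]
    intro x hx hx'
    exact hF0 x hx' hx)
  have h3 : W w (cl D (li D P a) ∪ cl D F) =
      W w (cl D (li D P a)) + W w (cl D F \ cl D (li D P a)) := by
    rw [← W_union Finset.disjoint_sdiff, Finset.union_sdiff_self_eq_union]
  linarith

end Vale.Agent.P038.H932
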