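import Vale.Agent.P038.H932.Square
import Vale.Agent.P038.H932.Shift

/-!
# P038 (H932): the left interiors of an outer-optimal pair cost no more (natural weights)
-/

namespace Vale.Agent.P038.H932

open Finset Vale.Agent.P038.H139 Vale.Agent.P038.H38

universe u

variable {V : Type u} [Fintype V] [DecidableEq V] {D : OGraph V}

/-- the copies of the vertices -/
abbrev Cp (n : V → ℕ) : Type u := Σ v : V, Fin (n v)

open Classical in
/-- The pairs of copies lying over a relation. -/
noncomputable def lift (n : V → ℕ) (Z : V → V → Prop) : Finset (Cp n × Cp n) :=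
  Finset.univ.filter fun p => Z p.1.1 p.2.1

theorem mem_lift {n : V → ℕ} {Z : V → V → Prop} {i j : Cp n} :
    (i, j) ∈ lift n Z ↔ Z i.1 j.1 := by
  classical
  simp [lift]

open Classical in
/-- Total mass of a relation. -/
noncomputable def mass (w : V → ℝ) (Z : V → V → Prop) : ℝ :=
  ∑ a, ∑ b, if Z a b then w a * w b else 0

theorem card_lift (n : V → ℕ) (Z : V → V → Prop) :
    ((lift n Z).card : ℝ) = mass (fun v => (n v : ℝ)) Z := by
  classical
  unfold lift mass
  rw [Finset.card_filter]
  push_cast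
  rw [Fintype.sum_prod_type, Fintype.sum_sigma]
  refine Finset.sum_congr rfl fun a _ => ?_
  have e : ∀ k : Fin (n a), ∑ y : Cp n, (if Z a y.1 then (1 : ℝ) else 0) =
      ∑ b, (if Z a b then (n b : ℝ) else 0) := by
    intro k
    rw [Fintype.sum_sigma]
    refine Finset.sum_congr rfl fun b _ => ?_
    simp only [Finset.sum_const, Finset.card_univ, Fintype.card_fin, nsmul_eq_mul]
    split_ifs <;> simp
  rw [Finset.sum_congr rfl fun k _ => e k]
  simp only [Finset.sum_const, Finset.card_univ, Fintype.card_fin, nsmul_eq_mul]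
  rw [Finset.mul_sum]
  refine Finset.sum_congr rfl fun b _ => ?_
  split_ifs <;> simp

theorem mass_row (w : V → ℝ) (P : V → Finset V) :
    mass w (fun a b => b ∈ P a) = ∑ a, w a * W w (P a) := by
  classical
  unfold mass
  refine Finset.sum_congr rfl fun a _ => ?_
  have e : (∑ b, if b ∈ P a then w a * w b else 0) = w a * W w (P a) := by
    unfold W
    rw [Finset.mul_sum, Finset.sum_ite_mem, Finset.univ_inter]
  refine Eq.trans (Finset.sum_congr rfl fun b _ => ?_) e
  by_cases hb : b ∈ P a <;> simp [hb]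

theorem mass_col (w : V → ℝ) (X : V → Finset V) (hX : ∀ b, b ∈ X b) :
    mass w (fun a b => a ∉ X b ∨ a = b) =
      mass w (fun _ _ => True) - ∑ b, w b * W w (X b) + ∑ a, w a * w a := by
  classical
  have e1 : ∑ b, w b * W w (X b) = ∑ a, ∑ b, if a ∈ X b then w a * w b else 0 := by
    rw [Finset.sum_comm]
    refine Finset.sum_congr rfl fun b _ => ?_
    unfold W
    rw [Finset.mul_sum, Finset.sum_ite_mem, Finset.univ_inter]
    refine Finset.sum_congr rfl fun a _ => mul_comm _ _
  have e2 : ∑ a, w a * w a = ∑ a, ∑ b, if a = b then w a * w b else 0 := by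
    refine Finset.sum_congr rfl fun a _ => ?_
    simp
  rw [e1, e2]
  unfold mass
  rw [← Finset.sum_sub_distrib, ← Finset.sum_add_distrib]
  refine Finset.sum_congr rfl fun a _ => ?_
  rw [← Finset.sum_sub_distrib, ← Finset.sum_add_distrib]
  refine Finset.sum_congr rfl fun b _ => ?_
  by_cases hab : a = b
  · subst hab
    simp [hX a]
  · by_cases h : a ∈ X b
    · simp [hab, h]
    · simp [hab, h]

theorem card_le_sum (n : V → ℕ) (F : Finset (Cp n)) :
    F.card ≤ ∑ v ∈ F.image Sigma.fst, n v := by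
  have h : F ⊆ (F.image Sigma.fst).sigma fun _ => Finset.univ := by
    intro x hx
    rw [Finset.mem_sigma]
    exact ⟨Finset.mem_image_of_mem _ hx, Finset.mem_univ _⟩
  refine (Finset.card_le_card h).trans ?_
  rw [Finset.card_sigma]
  simp

open Classical in
/-- Hall's condition for the copies. -/
theorem hall_copies {n : V → ℕ} (hn : ∀ v, 0 < n v) {P T : V → Finset V}
    (h : OutOpt D (fun v => (n v : ℝ)) P T) (a : V) (F : Finset (Cp n))
    (hF0 : ∀ j ∈ F, j.1 ∉ li D P a) (hF1 : ∀ j ∈ F, a ∉ cl D (T j.1)) :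
    F.card ≤ (F.biUnion fun j => Finset.univ.filter fun j' : Cp n =>
      cr D j.1 j'.1 ∧ j'.1 ∉ cl D (li D P a)).card := by
  have h1 := li_hall (fun v => Nat.cast_pos.2 (hn v)) h a (F.image Sigma.fst) (by
      intro b hb
      obtain ⟨j, hj, rfl⟩ := Finset.mem_image.1 hb
      exact hF0 j hj) (by
      intro b hb
      obtain ⟨j, hj, rfl⟩ := Finset.mem_image.1 hb
      exact hF1 j hj)
  have h2 : ∑ v ∈ F.image Sigma.fst, n v ≤
      ∑ v ∈ cl D (F.image Sigma.fst) \ cl D (li D P a), n v := by
    have h2' : ((∑ v ∈ F.image Sigma.fst, n v : ℕ) : ℝ) ≤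
        ((∑ v ∈ cl D (F.image Sigma.fst) \ cl D (li D P a), n v : ℕ) : ℝ) := by
      push_cast
      exact h1
    exact_mod_cast h2'
  refine (card_le_sum n F).trans (h2.trans ?_)
  have h3 : (cl D (F.image Sigma.fst) \ cl D (li D P a)).sigma (fun v => (Finset.univ : Finset
      (Fin (n v)))) ⊆ F.biUnion fun j => Finset.univ.filter fun j' : Cp n =>
      cr D j.1 j'.1 ∧ j'.1 ∉ cl D (li D P a) := by
    rintro ⟨v, k⟩ hv
    rw [Finset.mem_sigma] at hv
    obtain ⟨hv1, hv2⟩ := Finset.mem_sdiff.1 hv.1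
    obtain ⟨y, hy, hyv⟩ := mem_cl'.1 hv1
    obtain ⟨j, hj, rfl⟩ := Finset.mem_image.1 hy
    rw [Finset.mem_biUnion]
    exact ⟨j, hj, Finset.mem_filter.2 ⟨Finset.mem_univ _, hyv, hv2⟩⟩
  refine le_trans ?_ (Finset.card_le_card h3)
  rw [Finset.card_sigma]
  simp

theorem shift_le {n : V → ℕ} (hn : ∀ v, 0 < n v) {P T : V → Finset V}
    (h : OutOpt D (fun v => (n v : ℝ)) P T) :
    En D (fun v => (n v : ℝ)) (li D P) + En D (fun v => (n v : ℝ)) (li D T) ≤
      En D (fun v => (n v : ℝ)) P + En D (fun v => (n v : ℝ)) T := by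
  classical
  have hO := h.toOuter
  set w : V → ℝ := fun v => (n v : ℝ) with hw
  let L0 : V → V → Prop := fun a b => b ∈ li D P a
  let L1' : V → V → Prop := fun a b => a ∉ cl D (T b) ∨ a = b
  let U0 : V → V → Prop := fun a b => b ∈ P a
  let U1 : V → V → Prop := fun a b => a ∉ T b ∨ a = b
  let T0 : V → V → Prop := fun a b => b ∈ cl D (li D P a)
  let T1 : V → V → Prop := fun a b => a ∉ cl D (li D T b) ∨ a = b
  let N0 : V → V → Prop := fun a b => b ∈ cl D (P a)
  let N1' : V → V → Prop := fun a b => a ∉ li D T b ∨ a = b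
  have hL01 : ∀ a b, L0 a b → L1' a b := fun a b hb => by
    by_cases hab : a = b
    · exact Or.inr hab
    · exact Or.inl (li_not_cl hO hb hab)
  have hU01 : ∀ a b, U0 a b → U1 a b := fun a b hb => by
    by_cases hab : a = b
    · exact Or.inr hab
    · exact Or.inl fun hc => hab (hO.orth a b hb hc)
  have hT01 : ∀ a b, T0 a b → T1 a b := fun a b hb => by
    by_cases hab : a = b
    · exact Or.inr hab
    · exact Or.inl (li_orth hO hb hab)
  have hN01 : ∀ a b, N0 a b → N1' a b := fun a b hb => by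
    by_cases hab : a = b
    · exact Or.inr hab
    · exact Or.inl (cl_not_li hO hb hab)
  have main := square_count (fun i j : Cp n => cr D i.1 j.1) (lift n L0) (lift n L1')
    (lift n U0) (lift n U1) (lift n T0) (lift n T1) (lift n N0) (lift n N1')
    (by
      intro i i' j hij hr
      rw [mem_lift] at hij ⊢
      rcases hij with hij | hij
      · exact Or.inl fun hc => hij (mem_cl'.2 ⟨_, hc, hr⟩)
      · rw [hij] at hr
        exact hU01 _ _ (hO.left _ _ hr))
    (by
      intro i j j' hij hr
      rw [mem_lift] at hij ⊢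
      rcases hij with hij | hij
      · refine Or.inl fun hc => hij ?_
        obtain ⟨y, hy, hyi⟩ := mem_cl'.1 hc
        exact mem_cl'.2 ⟨y, mem_li.1 hy _ hr, hyi⟩
      · refine hT01 _ _ (mem_cl'.2 ⟨i.1, self_mem_li hO _, ?_⟩)
        rw [hij]
        exact hr)
    (by
      intro i j j' hij hr
      rw [mem_lift] at hij ⊢
      exact mem_cl'.2 ⟨_, hij, hr⟩)
    (by
      intro i i' j hij hr
      rw [mem_lift] at hij ⊢
      obtain ⟨x, hx, hxj⟩ := mem_cl'.1 hij
      exact mem_cl'.2 ⟨x, mem_li.1 hx _ hr, hxj⟩)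
    (by
      intro i F hF
      refine ⟨fun j => Finset.univ.filter fun j' : Cp n =>
        cr D j.1 j'.1 ∧ j'.1 ∉ cl D (li D P i.1), ?_, ?_⟩
      · intro j hj j' hj'
        obtain ⟨h1, h2⟩ := (Finset.mem_filter.1 hj').2
        exact ⟨h1, fun h3 => h2 (mem_lift.1 h3)⟩
      · intro F' hF'
        refine hall_copies hn h i.1 F' ?_ ?_
        · intro j hj hc
          exact (Finset.mem_sdiff.1 (hF j (hF' hj))).2 (mem_lift.2 hc)
        · intro j hj
          obtain ⟨h1, h2⟩ := Finset.mem_sdiff.1 (hF j (hF' hj))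
          rcases mem_lift.1 h1 with h3 | h3
          · exact h3
          · exfalso
            refine h2 (mem_lift.2 ?_)
            change j.1 ∈ li D P i.1
            rw [← h3]
            exact self_mem_li hO _)
    (by
      intro j F hF
      refine ⟨fun i => Finset.univ.filter fun i' : Cp n =>
        cr D i.1 i'.1 ∧ i'.1 ∉ cl D (li D T j.1), ?_, ?_⟩
      · intro i hi i' hi'
        obtain ⟨h1, h2⟩ := (Finset.mem_filter.1 hi').2
        exact ⟨h1, mem_lift.2 (Or.inl h2)⟩
      · intro F' hF'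
        refine hall_copies hn h.swap' j.1 F' ?_ ?_
        · intro i hi hc
          obtain ⟨h1, h2⟩ := Finset.mem_sdiff.1 (hF i (hF' hi))
          rcases mem_lift.1 h1 with h3 | h3
          · exact h3 hc
          · refine h2 (mem_lift.2 ?_)
            change j.1 ∈ cl D (P i.1)
            rw [h3]
            exact subset_cl _ _ (hO.left _ _ (Or.inl rfl))
        · intro i hi hc
          exact (Finset.mem_sdiff.1 (hF i (hF' hi))).2 (mem_lift.2 hc))
  have hsub : ∀ Z0 Z1 : V → V → Prop, (∀ a b, Z0 a b → Z1 a b) →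
      (((lift n Z1) \ (lift n Z0)).card : ℝ) = mass w Z1 - mass w Z0 := by
    intro Z0 Z1 hZ
    have h1 : lift n Z0 ⊆ lift n Z1 := by
      rintro ⟨i, j⟩ hij
      exact mem_lift.2 (hZ _ _ (mem_lift.1 hij))
    have h2 := Finset.card_sdiff_add_card_eq_card h1
    rw [← card_lift, ← card_lift, ← h2]
    push_cast
    ring
  have main' : (((lift n L1') \ (lift n L0)).card : ℝ) + (((lift n N1') \ (lift n N0)).card : ℝ) ≤
      (((lift n U1) \ (lift n U0)).card : ℝ) + (((lift n T1) \ (lift n T0)).card : ℝ) := by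
    exact_mod_cast main
  rw [hsub _ _ hL01, hsub _ _ hN01, hsub _ _ hU01, hsub _ _ hT01] at main'
  have s1 := mass_col w (fun b => cl D (T b)) fun b => subset_cl _ _ (hO.right _ _ (Or.inl rfl))
  have s2 := mass_col w (fun b => li D T b) (self_mem_li hO.swap)
  have s3 := mass_col w T fun b => hO.right _ _ (Or.inl rfl)
  have s4 := mass_col w (fun b => cl D (li D T b)) fun b => subset_cl _ _ (self_mem_li hO.swap b)
  have t1 := mass_row w (li D P)
  have t2 := mass_row w (fun a => cl D (P a))
  have t3 := mass_row w P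
  have t4 := mass_row w (fun a => cl D (li D P a))
  have En_eq : ∀ Y : V → Finset V, En D w Y = ∑ a, w a * W w (cl D (Y a)) - ∑ a, w a * W w (Y a) := by
    intro Y
    unfold En
    rw [← Finset.sum_sub_distrib]
    refine Finset.sum_congr rfl fun a _ => ?_
    rw [W_L1, mul_sub]
  rw [En_eq, En_eq, En_eq, En_eq]
  simp only [L1', N1', U1, T1, L0, N0, U0, T0] at main'
  rw [s1, s2, s3, s4, t1, t2, t3, t4] at main'
  linarith

end Vale.Agent.P038.H932
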