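import Vale.Agent.P038.H932.Count

/-!
# P038 (H932): Seymour's second neighbourhood conjecture
-/

namespace Vale.Agent.P038.H932

open Finset Vale.Agent.P038.H139 Vale.Agent.P038.H38

universe u

variable {V : Type u} [Fintype V] [DecidableEq V] {D : OGraph V}

theorem L2_eq (S : Finset V) : L2 D S = L1 D (cl D S) := by
  ext z
  rw [mem_L2, mem_L1']

/-- (OPT) holds for natural weights. -/
theorem opt_nat (D : OGraph V) {n : V → ℕ} (hn : ∀ v, 0 < n v) : OPT D (fun v => (n v : ℝ)) := by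
  classical
  intro Y Z hYZ hmin
  obtain ⟨⟨P, T⟩, hPT, hPTmin⟩ := Set.exists_min_image
    {p : (V → Finset V) × (V → Finset V) | Outer D p.1 p.2}
    (fun p => En D (fun v => (n v : ℝ)) p.1 + En D (fun v => (n v : ℝ)) p.2)
    (Set.toFinite _) ⟨(fun a => cl D (Y a), fun a => cl D (Z a)), Outer_cl hYZ⟩
  have hopt : OutOpt D (fun v => (n v : ℝ)) P T := ⟨hPT, fun P' T' h' => hPTmin (P', T') h'⟩
  have h1 := hPTmin (fun a => cl D (Y a), fun a => cl D (Z a)) (Outer_cl hYZ)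
  have h2 := shift_le hn hopt
  have h3 := hmin _ _ (Orth_li hPT)
  have e : ∀ X : V → Finset V, ∑ a, (n a : ℝ) * W (fun v => (n v : ℝ)) (L2 D (X a)) =
      En D (fun v => (n v : ℝ)) (fun a => cl D (X a)) := by
    intro X
    unfold En
    refine Finset.sum_congr rfl fun a _ => ?_
    rw [L2_eq]
  rw [e Y, e Z]
  exact h3.trans (h2.trans h1)

/-- Strict inequalities survive in natural weights. -/
theorem exists_nat_GS {w : V → ℝ} (hw : ∀ v, 0 < w v) (hG : GS D w) :
    ∃ n : V → ℕ, (∀ v, 0 < n v) ∧ GS D (fun v => (n v : ℝ)) := by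
  classical
  let gap : Finset V → ℝ := fun S =>
    if (L1 D S).Nonempty then W w (L1 D S) - W w (L2 D S) else 1
  have hgap : ∀ S, 0 < gap S := by
    intro S
    simp only [gap]
    split_ifs with h
    · have := hG S h
      linarith
    · exact one_pos
  obtain ⟨S0, -, hS0⟩ := Finset.exists_min_image (Finset.univ : Finset (Finset V)) gap
    ⟨∅, Finset.mem_univ _⟩
  obtain ⟨N, hN⟩ := exists_nat_gt ((Fintype.card V : ℝ) / gap S0)
  have hN1 : (Fintype.card V : ℝ) < N * gap S0 := (div_lt_iff₀ (hgap S0)).1 hN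
  have hN0 : (0 : ℝ) < N := lt_of_le_of_lt (div_nonneg (Nat.cast_nonneg _) (hgap S0).le) hN
  refine ⟨fun v => ⌈(N : ℝ) * w v⌉₊, fun v => Nat.ceil_pos.2 (mul_pos hN0 (hw v)), ?_⟩
  intro S hS
  have h1 : (N : ℝ) * W w (L1 D S) ≤ W (fun v => ((⌈(N : ℝ) * w v⌉₊ : ℕ) : ℝ)) (L1 D S) := by
    unfold W
    rw [Finset.mul_sum]
    exact Finset.sum_le_sum fun v _ => Nat.le_ceil _
  have h2 : W (fun v => ((⌈(N : ℝ) * w v⌉₊ : ℕ) : ℝ)) (L2 D S) ≤
      (N : ℝ) * W w (L2 D S) + Fintype.card V := by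
    have h3 : W (fun v => ((⌈(N : ℝ) * w v⌉₊ : ℕ) : ℝ)) (L2 D S) ≤
        ∑ v ∈ L2 D S, ((N : ℝ) * w v + 1) :=
      Finset.sum_le_sum fun v _ => (Nat.ceil_lt_add_one (mul_pos hN0 (hw v)).le).le
    refine h3.trans ?_
    rw [Finset.sum_add_distrib, ← Finset.mul_sum]
    have h4 : ∑ _v ∈ L2 D S, (1 : ℝ) ≤ Fintype.card V := by
      rw [Finset.sum_const, nsmul_eq_mul, mul_one]
      exact_mod_cast Finset.card_le_univ _
    unfold W
    linarith
  have h5 := hS0 S (Finset.mem_univ _)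
  have h6 : gap S = W w (L1 D S) - W w (L2 D S) := if_pos hS
  have h7 : (N : ℝ) * gap S0 ≤ N * (W w (L1 D S) - W w (L2 D S)) := by
    rw [← h6]
    exact mul_le_mul_of_nonneg_left h5 hN0.le
  nlinarith

/-- 294's inequality is strict when `lam < 1`. -/
theorem GS_of_NF {lam : ℝ} (h1 : lam < 1) {w : V → ℝ} (h : NF lam D w) : GS D w := by
  intro S hS
  have h2 : W w (L2 D S) ≤ lam * W w (L1 D S) := step3 h.toOpt S
  have h3 : 0 < W w (L1 D S) := Finset.sum_pos (fun v _ => h.pos v) hS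
  nlinarith

end Vale.Agent.P038.H932

namespace Vale.Agent.P038.H932

open Finset Vale.Agent.P038.H139 Vale.Agent.P038.H38

universe u

theorem no_NF {lam : ℝ} (h1 : lam < 1) (V : Type u) [Fintype V] [Nonempty V] (D : OGraph V)
    (w : V → ℝ) : ¬ NF lam D w := by
  classical
  intro h
  obtain ⟨n, hn, hG⟩ := exists_nat_GS h.pos (GS_of_NF h1 h)
  exact opt_false (fun v => Nat.cast_pos.2 (hn v)) hG (strong_of_NF h) (exists_arc_of_NF h)
    (opt_nat D hn)

/-- **Seymour's second neighbourhood conjecture, weighted form.** -/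
theorem snc_weighted {V : Type u} [Fintype V] [Nonempty V] (D : OGraph V) (w : V → ℝ)
    (hw : ∀ v, 0 ≤ w v) : ∃ v, ∑ u ∈ N1 D v, w u ≤ ∑ u ∈ N2 D v, w u := by
  classical
  by_contra hcon
  push Not at hcon
  have hpos : ∀ v, 0 < ∑ u ∈ N1 D v, w u := fun v =>
    lt_of_le_of_lt (Finset.sum_nonneg fun u _ => hw u) (hcon v)
  obtain ⟨v0, -, hv0⟩ := Finset.exists_max_image (Finset.univ : Finset V)
    (fun v => (∑ u ∈ N2 D v, w u) / ∑ u ∈ N1 D v, w u) Finset.univ_nonempty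
  set c := (∑ u ∈ N2 D v0, w u) / ∑ u ∈ N1 D v0, w u with hc
  have hc1 : c < 1 := (div_lt_one (hpos v0)).2 (hcon v0)
  have hc0 : 0 ≤ c := div_nonneg (Finset.sum_nonneg fun u _ => hw u) (hpos v0).le
  obtain ⟨v, hv⟩ := snc_of_noNF (lam := (1 + c) / 2) (by linarith)
    (fun V _ _ D w => no_NF (by linarith) V D w) D w hw
  have h1 := (div_le_iff₀ (hpos v)).1 (hv0 v (Finset.mem_univ _))
  have h2 := hpos v
  nlinarith

/-- **Seymour's second neighbourhood conjecture.** -/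
theorem snc {V : Type u} [Fintype V] [Nonempty V] (D : OGraph V) :
    ∃ v, (N1 D v).card ≤ (N2 D v).card := by
  obtain ⟨v, hv⟩ := snc_weighted D (fun _ => 1) (fun _ => zero_le_one)
  refine ⟨v, ?_⟩
  simp only [Finset.sum_const, nsmul_eq_mul, mul_one] at hv
  exact_mod_cast hv

end Vale.Agent.P038.H932

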