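import Mathlib

/-!
# P038 (H932): a generic matrix on a relation, and the commuting square

`exists_generic`: for every relation `r` on a finite type there is a matrix over a field supported on
`r` all of whose square submatrices that carry a matching are invertible.
`square_count`: the dimension count for the commuting operators `1 ⊗ M` and `Mᵀ ⊗ 1`.
-/

namespace Vale.Agent.P038.H932

open Finset

universe u

/-- A generic matrix with support in `{(i, j) : r j i}`. -/
theorem exists_generic {I : Type u} [Fintype I] [DecidableEq I] (r : I → I → Prop) :
    ∃ (K : Type u) (_ : Field K) (M : I → I → K), (∀ i j, ¬ r j i → M i j = 0) ∧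
      ∀ (C : Finset I) (f : {c // c ∈ C} → I), Function.Injective f → (∀ c, r c.1 (f c)) →
        (Matrix.of fun (c' c : {c // c ∈ C}) => M (f c') c.1).det ≠ 0 := by
  classical
  let R := MvPolynomial (I × I) ℚ
  let M' : I → I → R := fun i j => if r j i then MvPolynomial.X (i, j) else 0
  refine ⟨FractionRing R, inferInstance, fun i j => algebraMap R (FractionRing R) (M' i j),
    ?_, ?_⟩
  · intro i j h
    simp [M', h]
  · intro C f hf hr
    have hinj : Function.Injective (algebraMap R (FractionRing R)) :=
      IsFractionRing.injective R (FractionRing R)
    have e1 : (Matrix.of fun (c' c : {c // c ∈ C}) =>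
        algebraMap R (FractionRing R) (M' (f c') c.1)) =
        (algebraMap R (FractionRing R)).mapMatrix
          (Matrix.of fun (c' c : {c // c ∈ C}) => M' (f c') c.1) := by
      ext a b
      simp
    rw [e1, ← RingHom.map_det]
    intro h0
    have h1 : (Matrix.of fun (c' c : {c // c ∈ C}) => M' (f c') c.1).det = 0 :=
      hinj (by rw [h0, map_zero])
    let e : I × I → ℚ := fun p => if h : p.2 ∈ C then (if p.1 = f ⟨p.2, h⟩ then 1 else 0) else 0
    have h2 := congrArg (MvPolynomial.eval e) h1
    rw [RingHom.map_det, map_zero] at h2
    have h3 : (MvPolynomial.eval e).mapMatrix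
        (Matrix.of fun (c' c : {c // c ∈ C}) => M' (f c') c.1) = 1 := by
      ext a b
      rw [RingHom.mapMatrix_apply, Matrix.map_apply, Matrix.of_apply, Matrix.one_apply]
      by_cases hab : a = b
      · subst hab
        simp [M', hr a, e, a.2]
      · rw [if_neg hab]
        by_cases hrab : r b.1 (f a)
        · have hne : f a ≠ f b := fun h => hab (hf h)
          simp [M', hrab, e, b.2, hne]
        · simp [M', hrab]
    rw [h3, Matrix.det_one] at h2
    exact one_ne_zero h2

/-- The dimension count. -/
theorem dim_count {K L M N : Type*} [Field K] [AddCommGroup L] [Module K L] [AddCommGroup M]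
    [Module K M] [AddCommGroup N] [Module K N] [FiniteDimensional K L] [FiniteDimensional K M]
    [FiniteDimensional K N] (d1 : L →ₗ[K] M) (d2 : M →ₗ[K] N) (h : ∀ x, d2 (d1 x) = 0)
    (h1 : Function.Injective d1) (h2 : Function.Surjective d2) :
    Module.finrank K L + Module.finrank K N ≤ Module.finrank K M := by
  have e1 := LinearMap.finrank_range_add_finrank_ker d2
  rw [LinearMap.range_eq_top.2 h2, finrank_top] at e1
  have e2 : Module.finrank K L ≤ Module.finrank K (LinearMap.ker d2) := by
    let g : L →ₗ[K] LinearMap.ker d2 := d1.codRestrict _ fun x => by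
      rw [LinearMap.mem_ker]; exact h x
    refine LinearMap.finrank_le_finrank_of_injective (f := g) ?_
    intro x y hxy
    apply h1
    have := congrArg Subtype.val hxy
    exact this
  omega

end Vale.Agent.P038.H932
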