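import Vale.Agent.P038.H932.Gen

/-!
# P038 (H932): the commuting square

`square_count`: combinatorial form of the dimension count for `R = 1 ⊗ M`, `S = Mᵀ ⊗ 1`.
-/

namespace Vale.Agent.P038.H932

open Finset

universe u

section

variable {I : Type u} [Fintype I] [DecidableEq I] {K : Type u} [Field K] (M : I → I → K)

/-- Extension by zero. -/
def ext0 (Z : Finset (I × I)) (x : {p // p ∈ Z} → K) (p : I × I) : K :=
  if h : p ∈ Z then x ⟨p, h⟩ else 0

theorem ext0_mem {Z : Finset (I × I)} (x : {p // p ∈ Z} → K) {p : I × I} (h : p ∈ Z) :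
    ext0 Z x p = x ⟨p, h⟩ := dif_pos h

theorem ext0_notMem {Z : Finset (I × I)} (x : {p // p ∈ Z} → K) {p : I × I} (h : p ∉ Z) :
    ext0 Z x p = 0 := dif_neg h

theorem ext0_add {Z : Finset (I × I)} (x y : {p // p ∈ Z} → K) (p : I × I) :
    ext0 Z (x + y) p = ext0 Z x p + ext0 Z y p := by
  unfold ext0
  split_ifs <;> simp

theorem ext0_smul {Z : Finset (I × I)} (c : K) (x : {p // p ∈ Z} → K) (p : I × I) :
    ext0 Z (c • x) p = c * ext0 Z x p := by
  unfold ext0
  split_ifs <;> simp

/-- `1 ⊗ M` -/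
def opR (x : I × I → K) (p : I × I) : K := ∑ j, M p.2 j * x (p.1, j)

/-- `Mᵀ ⊗ 1` -/
def opS (x : I × I → K) (p : I × I) : K := ∑ i, M i p.1 * x (i, p.2)

theorem op_comm (x : I × I → K) (p : I × I) : opR M (opS M x) p = opS M (opR M x) p := by
  unfold opR opS
  simp only [Finset.mul_sum]
  rw [Finset.sum_comm]
  refine Finset.sum_congr rfl fun i _ => Finset.sum_congr rfl fun j _ => ?_
  ring

/-- `R` from functions on `Z` to functions on `Z'`. -/
def linR (Z Z' : Finset (I × I)) : ({p // p ∈ Z} → K) →ₗ[K] ({p // p ∈ Z'} → K) where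
  toFun x p := opR M (ext0 Z x) p.1
  map_add' x y := by
    funext p
    simp only [opR, ext0_add, Pi.add_apply, mul_add, Finset.sum_add_distrib]
  map_smul' c x := by
    funext p
    simp only [opR, ext0_smul, Pi.smul_apply, RingHom.id_apply, smul_eq_mul, Finset.mul_sum]
    refine Finset.sum_congr rfl fun j _ => ?_
    ring

/-- `S` from functions on `Z` to functions on `Z'`. -/
def linS (Z Z' : Finset (I × I)) : ({p // p ∈ Z} → K) →ₗ[K] ({p // p ∈ Z'} → K) where
  toFun x p := opS M (ext0 Z x) p.1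
  map_add' x y := by
    funext p
    simp only [opS, ext0_add, Pi.add_apply, mul_add, Finset.sum_add_distrib]
  map_smul' c x := by
    funext p
    simp only [opS, ext0_smul, Pi.smul_apply, RingHom.id_apply, smul_eq_mul, Finset.mul_sum]
    refine Finset.sum_congr rfl fun j _ => ?_
    ring

end

/-- Hall's theorem for a finset of sources. -/
theorem exists_matching {I : Type u} [Fintype I] [DecidableEq I] (C : Finset I) (t : I → Finset I)
    (h : ∀ F ⊆ C, F.card ≤ (F.biUnion t).card) :
    ∃ f : {c // c ∈ C} → I, Function.Injective f ∧ ∀ c, f c ∈ t c.1 := by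
  have h1 := (Finset.all_card_le_biUnion_card_iff_exists_injective
    (fun c : {c // c ∈ C} => t c.1)).1 (by
      intro s
      have e1 : (s.map (Function.Embedding.subtype _)).card = s.card := Finset.card_map _
      have e2 : (s.map (Function.Embedding.subtype _)) ⊆ C := by
        intro x hx
        obtain ⟨y, _, rfl⟩ := Finset.mem_map.1 hx
        exact y.2
      have e3 := h _ e2
      rw [e1] at e3
      refine e3.trans (le_of_eq ?_)
      congr 1
      ext z
      simp only [Finset.mem_biUnion, Finset.mem_map]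
      constructor
      · rintro ⟨a, ⟨b, hb, rfl⟩, hz⟩
        exact ⟨b, hb, hz⟩
      · rintro ⟨b, hb, hz⟩
        exact ⟨_, ⟨b, hb, rfl⟩, hz⟩)
  obtain ⟨f, hf, hf'⟩ := h1
  exact ⟨f, hf, hf'⟩

/-- **The commuting square.** -/
theorem square_count {I : Type u} [Fintype I] [DecidableEq I] (r : I → I → Prop)
    (L0 L1 U0 U1 T0 T1 N0 N1 : Finset (I × I))
    (hSL1 : ∀ i i' j, (i, j) ∈ L1 → r i' i → (i', j) ∈ U1)
    (hRL1 : ∀ i j j', (i, j) ∈ L1 → r j j' → (i, j') ∈ T1)
    (hRU0 : ∀ i j j', (i, j) ∈ U0 → r j j' → (i, j') ∈ N0)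
    (hST0 : ∀ i i' j, (i, j) ∈ T0 → r i' i → (i', j) ∈ N0)
    (hL : ∀ i, ∀ F : Finset I, (∀ j ∈ F, (i, j) ∈ L1 \ L0) → ∃ t : I → Finset I,
      (∀ j ∈ F, ∀ j' ∈ t j, r j j' ∧ (i, j') ∉ T0) ∧ ∀ F' ⊆ F, F'.card ≤ (F'.biUnion t).card)
    (hN : ∀ j, ∀ F : Finset I, (∀ i ∈ F, (i, j) ∈ N1 \ N0) → ∃ t : I → Finset I,
      (∀ i ∈ F, ∀ i' ∈ t i, r i i' ∧ (i', j) ∈ T1) ∧ ∀ F' ⊆ F, F'.card ≤ (F'.biUnion t).card) :
    (L1 \ L0).card + (N1 \ N0).card ≤ (U1 \ U0).card + (T1 \ T0).card := by
  classical
  obtain ⟨K, _, M, hM0, hMdet⟩ := exists_generic r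
  set L := L1 \ L0 with hLdef
  set U := U1 \ U0 with hUdef
  set T := T1 \ T0 with hTdef
  set N := N1 \ N0 with hNdef
  let d1 : ({p // p ∈ L} → K) →ₗ[K] ({p // p ∈ U} → K) × ({p // p ∈ T} → K) :=
    (linS M L U).prod (linR M L T)
  let d2 : ({p // p ∈ U} → K) × ({p // p ∈ T} → K) →ₗ[K] ({p // p ∈ N} → K) :=
    (linR M U N).coprod (-(linS M T N))
  have hcomp : ∀ x, d2 (d1 x) = 0 := by
    intro x
    funext p
    obtain ⟨⟨i', j'⟩, hp⟩ := p
    obtain ⟨hp1, hp0⟩ := Finset.mem_sdiff.1 hp
    have e1 : (linR M U N (linS M L U x)) ⟨(i', j'), hp⟩ = opR M (opS M (ext0 L x)) (i', j') := by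
      change opR M (ext0 U (linS M L U x)) (i', j') = _
      unfold opR
      refine Finset.sum_congr rfl fun j _ => ?_
      by_cases hU : (i', j) ∈ U
      · rw [ext0_mem _ hU]
        rfl
      · rw [ext0_notMem _ hU, mul_zero]
        symm
        by_cases hU0 : (i', j) ∈ U0
        · have : M j' j = 0 := hM0 _ _ fun hr => hp0 (hRU0 _ _ _ hU0 hr)
          rw [this, zero_mul]
        · have hU1 : (i', j) ∉ U1 := fun h => hU (Finset.mem_sdiff.2 ⟨h, hU0⟩)
          have : opS M (ext0 L x) (i', j) = 0 := by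
            unfold opS
            refine Finset.sum_eq_zero fun i _ => ?_
            by_cases hiL : (i, j) ∈ L
            · have : M i i' = 0 := hM0 _ _ fun hr =>
                hU1 (hSL1 _ _ _ (Finset.mem_sdiff.1 hiL).1 hr)
              rw [this, zero_mul]
            · rw [ext0_notMem _ hiL, mul_zero]
          change M j' j * opS M (ext0 L x) (i', j) = 0
          rw [this, mul_zero]
    have e2 : (linS M T N (linR M L T x)) ⟨(i', j'), hp⟩ = opS M (opR M (ext0 L x)) (i', j') := by
      change opS M (ext0 T (linR M L T x)) (i', j') = _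
      unfold opS
      refine Finset.sum_congr rfl fun i _ => ?_
      by_cases hT : (i, j') ∈ T
      · rw [ext0_mem _ hT]
        rfl
      · rw [ext0_notMem _ hT, mul_zero]
        symm
        by_cases hT0 : (i, j') ∈ T0
        · have : M i i' = 0 := hM0 _ _ fun hr => hp0 (hST0 _ _ _ hT0 hr)
          change M i i' * _ = 0
          rw [this, zero_mul]
        · have hT1 : (i, j') ∉ T1 := fun h => hT (Finset.mem_sdiff.2 ⟨h, hT0⟩)
          have : opR M (ext0 L x) (i, j') = 0 := by
            unfold opR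
            refine Finset.sum_eq_zero fun j _ => ?_
            by_cases hiL : (i, j) ∈ L
            · have : M j' j = 0 := hM0 _ _ fun hr =>
                hT1 (hRL1 _ _ _ (Finset.mem_sdiff.1 hiL).1 hr)
              rw [this, zero_mul]
            · rw [ext0_notMem _ hiL, mul_zero]
          change M i i' * opR M (ext0 L x) (i, j') = 0
          rw [this, mul_zero]
    have e3 : d2 (d1 x) ⟨(i', j'), hp⟩ =
        (linR M U N (linS M L U x)) ⟨(i', j'), hp⟩ - (linS M T N (linR M L T x)) ⟨(i', j'), hp⟩ := by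
      simp [d1, d2, sub_eq_add_neg]
    rw [e3, e1, e2, op_comm, sub_self]
    rfl
  have hinj : Function.Injective d1 := by
    rw [← LinearMap.ker_eq_bot, LinearMap.ker_eq_bot']
    intro x hx
    have hx2 : linR M L T x = 0 := congrArg Prod.snd hx
    funext p
    obtain ⟨⟨i, j⟩, hp⟩ := p
    obtain ⟨t, ht, ht'⟩ := hL i (Finset.univ.filter fun j => (i, j) ∈ L) (by simp)
    obtain ⟨f, hf, hft⟩ := exists_matching _ t ht'
    have hr : ∀ c, r c.1 (f c) := fun c => (ht c.1 c.2 _ (hft c)).1
    have hdet := hMdet _ f hf hr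
    have hz : (fun c : {c // c ∈ (Finset.univ.filter fun j => (i, j) ∈ L)} =>
        ext0 L x (i, c.1)) = 0 := by
      refine Matrix.eq_zero_of_mulVec_eq_zero hdet ?_
      funext c'
      have hcT : (i, f c') ∈ T := by
        refine Finset.mem_sdiff.2 ⟨?_, (ht c'.1 c'.2 _ (hft c')).2⟩
        have h1 := (Finset.mem_filter.1 c'.2).2
        exact hRL1 _ _ _ (Finset.mem_sdiff.1 h1).1 (hr c')
      have h2 : opR M (ext0 L x) (i, f c') = 0 := congrFun hx2 ⟨_, hcT⟩
      unfold opR at h2
      simp only [Matrix.mulVec, dotProduct, Matrix.of_apply, Pi.zero_apply]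
      rw [← h2]
      refine (Finset.sum_coe_sort_eq_attach _ _).trans ?_
      rw [Finset.sum_attach (Finset.univ.filter fun j => (i, j) ∈ L)
        (fun j => M (f c') j * ext0 L x (i, j))]
      refine Finset.sum_subset (Finset.subset_univ _) ?_
      intro j _ hj
      have : (i, j) ∉ L := fun h => hj (by simp [h])
      rw [ext0_notMem _ this, mul_zero]
    have h3 := congrFun hz ⟨j, by simp [hp]⟩
    rw [Pi.zero_apply] at h3
    change ext0 L x (i, j) = 0 at h3
    rw [ext0_mem _ hp] at h3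
    exact h3
  have hsurj : Function.Surjective d2 := by
    intro y
    have hcol : ∀ j, ∃ z : I → K, (∀ i, z i ≠ 0 → (i, j) ∈ T) ∧
        ∀ i' (h : (i', j) ∈ N), ∑ i, M i i' * z i = - y ⟨(i', j), h⟩ := by
      intro j
      obtain ⟨t, ht, ht'⟩ := hN j (Finset.univ.filter fun i => (i, j) ∈ N) (by simp)
      obtain ⟨f, hf, hft⟩ := exists_matching _ t ht'
      have hr : ∀ c, r c.1 (f c) := fun c => (ht c.1 c.2 _ (hft c)).1
      have hdet := hMdet _ f hf hr
      set B := (Matrix.of fun (c' c : {c // c ∈ (Finset.univ.filter fun i => (i, j) ∈ N)}) =>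
        M (f c') c.1) with hB
      have hBu : IsUnit (B.transpose).det := by
        rw [Matrix.det_transpose]
        exact isUnit_iff_ne_zero.2 hdet
      let yv : {c // c ∈ (Finset.univ.filter fun i => (i, j) ∈ N)} → K :=
        fun c => - y ⟨(c.1, j), (Finset.mem_filter.1 c.2).2⟩
      let z0 := (B.transpose)⁻¹.mulVec yv
      have hz0 : (B.transpose).mulVec z0 = yv := by
        change (B.transpose).mulVec ((B.transpose)⁻¹.mulVec yv) = yv
        rw [Matrix.mulVec_mulVec, Matrix.mul_nonsing_inv _ hBu, Matrix.one_mulVec]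
      refine ⟨fun i => ∑ c, if f c = i then z0 c else 0, ?_, ?_⟩
      · intro i hi
        obtain ⟨c, _, hc⟩ := Finset.exists_ne_zero_of_sum_ne_zero hi
        have hfc : f c = i := by
          by_contra h
          rw [if_neg h] at hc
          exact hc rfl
        have h1 := ht c.1 c.2 _ (hft c)
        rw [hfc] at h1
        refine Finset.mem_sdiff.2 ⟨h1.2, fun h2 => ?_⟩
        have h3 := hST0 _ _ _ h2 h1.1
        exact (Finset.mem_sdiff.1 (Finset.mem_filter.1 c.2).2).2 h3
      · intro i' hi'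
        have h1 := congrFun hz0 ⟨i', by simp [hi']⟩
        have h2 : yv ⟨i', by simp [hi']⟩ = - y ⟨(i', j), hi'⟩ := rfl
        rw [h2] at h1
        rw [← h1]
        simp only [Matrix.mulVec, dotProduct, Matrix.transpose_apply, hB, Matrix.of_apply,
          Finset.mul_sum]
        rw [Finset.sum_comm]
        refine Finset.sum_congr rfl fun c _ => ?_
        rw [Finset.sum_eq_single (f c)]
        · rw [if_pos rfl]
        · intro b _ hb
          rw [if_neg (Ne.symm hb), mul_zero]
        · intro h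
          exact absurd (Finset.mem_univ _) h
    choose z hz1 hz2 using hcol
    refine ⟨(0, fun p => z p.1.2 p.1.1), ?_⟩
    funext p
    obtain ⟨⟨i', j⟩, hp⟩ := p
    have e3 : d2 (0, fun p => z p.1.2 p.1.1) ⟨(i', j), hp⟩ =
        - (linS M T N (fun p => z p.1.2 p.1.1)) ⟨(i', j), hp⟩ := by
      simp [d2]
    rw [e3]
    have e4 : (linS M T N (fun p => z p.1.2 p.1.1)) ⟨(i', j), hp⟩ = - y ⟨(i', j), hp⟩ := by
      rw [← hz2 j i' hp]
      change opS M (ext0 T _) (i', j) = _
      unfold opS
      refine Finset.sum_congr rfl fun i _ => ?_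
      by_cases hT : (i, j) ∈ T
      · rw [ext0_mem _ hT]
      · rw [ext0_notMem _ hT]
        have : z j i = 0 := by
          by_contra h
          exact hT (hz1 j i h)
        rw [this]
    rw [e4, neg_neg]
  have := dim_count d1 d2 hcomp hinj hsurj
  rw [Module.finrank_prod] at this
  simpa using this

end Vale.Agent.P038.H932
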